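import Vale.Agent.Lib.P229.Main

/-!
# P229: metrics whose coefficients depend on one coordinate are locally smoothly realizable

Every `C^∞` metric `E(x) dx² + 2 F(x) dx dy + G(x) dy²` (coefficients independent of `y`) is
locally `C^∞`-realizable in Euclidean three-space at every point where it is positive definite,
whatever the behaviour of its Gaussian curvature.
-/

namespace Vale.Agent.Results.P229.OneVariableMetric

open scoped ContDiff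

/-- Let `E, F, G` be `C^∞` on an open set `s ⊆ ℝ` and let `p = (x₀, y₀)` with `x₀ ∈ s` be a point
where the symmetric form `E(x) dx² + 2 F(x) dx dy + G(x) dy²` is positive definite.  Then some
open neighbourhood `U` of `p` carries `C^∞` functions `X, Y, Z` such that `Φ = (X, Y, Z)`
satisfies `⟨∂ₓΦ, ∂ₓΦ⟩ = E`, `⟨∂ₓΦ, ∂_yΦ⟩ = F`, `⟨∂_yΦ, ∂_yΦ⟩ = G` on `U`. -/
theorem result (E F G : ℝ → ℝ) (s : Set ℝ) (hs : IsOpen s)
    (hE : ContDiffOn ℝ ∞ E s) (hF : ContDiffOn ℝ ∞ F s) (hG : ContDiffOn ℝ ∞ G s)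
    (p : ℝ × ℝ) (hp : p.1 ∈ s) (hEpos : 0 < E p.1) (hdet : 0 < E p.1 * G p.1 - F p.1 ^ 2) :
    ∃ U : Set (ℝ × ℝ), IsOpen U ∧ p ∈ U ∧ ∃ X Y Z : ℝ × ℝ → ℝ,
      ContDiffOn ℝ ∞ X U ∧ ContDiffOn ℝ ∞ Y U ∧ ContDiffOn ℝ ∞ Z U ∧
      ∀ q ∈ U,
        (fderiv ℝ X q (1, 0)) ^ 2 + (fderiv ℝ Y q (1, 0)) ^ 2 + (fderiv ℝ Z q (1, 0)) ^ 2
          = E q.1 ∧
        fderiv ℝ X q (1, 0) * fderiv ℝ X q (0, 1) + fderiv ℝ Y q (1, 0) * fderiv ℝ Y q (0, 1)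
          + fderiv ℝ Z q (1, 0) * fderiv ℝ Z q (0, 1) = F q.1 ∧
        (fderiv ℝ X q (0, 1)) ^ 2 + (fderiv ℝ Y q (0, 1)) ^ 2 + (fderiv ℝ Z q (0, 1)) ^ 2
          = G q.1 :=
  Vale.Agent.Lib.P229.exists_realization E F G s hs hE hF hG p.1 p.2 hp hEpos hdet

end Vale.Agent.Results.P229.OneVariableMetric
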