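import Vale.Agent.Lib.P229.Strip

/-!
# P229: metrics whose coefficients depend on one coordinate are realizable on whole strips

A `C^∞` metric `E(x) dx² + 2 F(x) dx dy + G(x) dy²` (coefficients independent of `y`) is
`C^∞`-realizable in Euclidean three-space on the whole strip `(a, b) × ℝ` over every compact
interval `[a, b]` of positive definiteness, and hence on a full vertical strip through every
point of positive definiteness, whatever the behaviour of its Gaussian curvature.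
-/

namespace Vale.Agent.Results.P229.OneVariableMetricStrip

open scoped ContDiff

/-- Let `E, F, G` be `C^∞` on an open set `s ⊆ ℝ`.

(1) If `a < b`, `[a, b] ⊆ s` and the symmetric form `E(x) dx² + 2 F(x) dx dy + G(x) dy²` is
positive definite for every `x ∈ [a, b]`, then there are functions `X, Y, Z`, `C^∞` on the whole
open strip `(a, b) × ℝ`, such that `Φ = (X, Y, Z)` satisfies `⟨∂ₓΦ, ∂ₓΦ⟩ = E`,
`⟨∂ₓΦ, ∂_yΦ⟩ = F`, `⟨∂_yΦ, ∂_yΦ⟩ = G` at every point of the strip.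

(2) If the form is positive definite at `x₀ ∈ s`, then for some `ε > 0` the same holds on the
strip `(x₀ - ε, x₀ + ε) × ℝ`. -/
theorem result (E F G : ℝ → ℝ) (s : Set ℝ) (hs : IsOpen s)
    (hE : ContDiffOn ℝ ∞ E s) (hF : ContDiffOn ℝ ∞ F s) (hG : ContDiffOn ℝ ∞ G s) :
    (∀ a b : ℝ, a < b → Set.Icc a b ⊆ s →
      (∀ x ∈ Set.Icc a b, 0 < E x ∧ 0 < E x * G x - F x ^ 2) →
      ∃ X Y Z : ℝ × ℝ → ℝ,
        ContDiffOn ℝ ∞ X (Set.Ioo a b ×ˢ (Set.univ : Set ℝ)) ∧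
        ContDiffOn ℝ ∞ Y (Set.Ioo a b ×ˢ (Set.univ : Set ℝ)) ∧
        ContDiffOn ℝ ∞ Z (Set.Ioo a b ×ˢ (Set.univ : Set ℝ)) ∧
        ∀ q ∈ Set.Ioo a b ×ˢ (Set.univ : Set ℝ),
          (fderiv ℝ X q (1, 0)) ^ 2 + (fderiv ℝ Y q (1, 0)) ^ 2 + (fderiv ℝ Z q (1, 0)) ^ 2
            = E q.1 ∧
          fderiv ℝ X q (1, 0) * fderiv ℝ X q (0, 1) + fderiv ℝ Y q (1, 0) * fderiv ℝ Y q (0, 1)
            + fderiv ℝ Z q (1, 0) * fderiv ℝ Z q (0, 1) = F q.1 ∧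
          (fderiv ℝ X q (0, 1)) ^ 2 + (fderiv ℝ Y q (0, 1)) ^ 2 + (fderiv ℝ Z q (0, 1)) ^ 2
            = G q.1) ∧
    (∀ x₀ ∈ s, 0 < E x₀ → 0 < E x₀ * G x₀ - F x₀ ^ 2 →
      ∃ ε : ℝ, 0 < ε ∧ ∃ X Y Z : ℝ × ℝ → ℝ,
        ContDiffOn ℝ ∞ X (Set.Ioo (x₀ - ε) (x₀ + ε) ×ˢ (Set.univ : Set ℝ)) ∧
        ContDiffOn ℝ ∞ Y (Set.Ioo (x₀ - ε) (x₀ + ε) ×ˢ (Set.univ : Set ℝ)) ∧
        ContDiffOn ℝ ∞ Z (Set.Ioo (x₀ - ε) (x₀ + ε) ×ˢ (Set.univ : Set ℝ)) ∧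
        ∀ q ∈ Set.Ioo (x₀ - ε) (x₀ + ε) ×ˢ (Set.univ : Set ℝ),
          (fderiv ℝ X q (1, 0)) ^ 2 + (fderiv ℝ Y q (1, 0)) ^ 2 + (fderiv ℝ Z q (1, 0)) ^ 2
            = E q.1 ∧
          fderiv ℝ X q (1, 0) * fderiv ℝ X q (0, 1) + fderiv ℝ Y q (1, 0) * fderiv ℝ Y q (0, 1)
            + fderiv ℝ Z q (1, 0) * fderiv ℝ Z q (0, 1) = F q.1 ∧
          (fderiv ℝ X q (0, 1)) ^ 2 + (fderiv ℝ Y q (0, 1)) ^ 2 + (fderiv ℝ Z q (0, 1)) ^ 2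
            = G q.1) :=
  ⟨fun a b hab hIcc hpos =>
      Vale.Agent.Lib.P229.compact_realization E F G s hs hE hF hG a b hab hIcc hpos,
    fun x₀ hx₀ hEpos hdet =>
      Vale.Agent.Lib.P229.pointwise_strip_realization E F G s hs hE hF hG x₀ hx₀ hEpos hdet⟩

end Vale.Agent.Results.P229.OneVariableMetricStrip
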